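import Mathlib

/-!
# Pinned distances and equidistant points (double counting of isosceles triples)
-/

namespace Vale.Agent.Lib.P054

open Finset

variable {α : Type*} [MetricSpace α]

/-- Collision count of a function on a finite set, via Cauchy-Schwarz:
`|S|² ≤ |F(S)| · #{(a, b) ∈ S² : F a = F b}`. -/
theorem sq_card_le_card_image_mul {ι κ : Type*} [DecidableEq ι] [DecidableEq κ] (S : Finset ι)
    (F : ι → κ) :
    S.card ^ 2 ≤ (S.image F).card * ∑ a ∈ S, (S.filter (fun b => F b = F a)).card := by
  have h1 : S.card = ∑ r ∈ S.image F, (S.filter (fun a => F a = r)).card :=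
    Finset.card_eq_sum_card_image F S
  have h2 : ∑ a ∈ S, (S.filter (fun b => F b = F a)).card =
      ∑ r ∈ S.image F, (S.filter (fun a => F a = r)).card ^ 2 := by
    rw [← Finset.sum_fiberwise_of_maps_to (g := F) (t := S.image F)
      (fun a ha => Finset.mem_image_of_mem F ha)]
    apply Finset.sum_congr rfl
    intro r _
    rw [sq, Finset.card_eq_sum_ones (S.filter (fun a => F a = r)), Finset.sum_mul]
    apply Finset.sum_congr rfl
    intro a ha
    rw [one_mul, (Finset.mem_filter.mp ha).2, Finset.card_eq_sum_ones]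
  rw [h2, h1]
  have := @sq_sum_le_card_mul_sum_sq κ ℕ _ _ _ _ (S.image F)
    (fun r => (S.filter (fun a => F a = r)).card)
  simpa using this

end Vale.Agent.Lib.P054

namespace Vale.Agent.Lib.P054

open Finset

variable {α : Type*} [MetricSpace α]

/-- Double counting of isosceles triples: if for any two distinct points `a, b` of a finite set
`P` at most `h` points of `P` are equidistant from `a` and `b`, then some point of `P` sees at
least `(|P| - 1) / (h + 1)` distinct distances to the other points. -/
theorem exists_pinned_of_equidistant_le [DecidableEq α] (P : Finset α) (hP : P.Nonempty) (h : ℕ)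
    (hbis : ∀ a ∈ P, ∀ b ∈ P, a ≠ b → (P.filter (fun p => dist p a = dist p b)).card ≤ h) :
    ∃ p ∈ P, P.card - 1 ≤ (h + 1) * ((P.erase p).image (fun q => dist p q)).card := by
  classical
  obtain ⟨p0, hp0, hmax⟩ :=
    P.exists_max_image (fun p => ((P.erase p).image (fun q => dist p q)).card) hP
  refine ⟨p0, hp0, ?_⟩
  set t := ((P.erase p0).image (fun q => dist p0 q)).card with ht
  set n := P.card with hn
  have hCS : ∀ p ∈ P, (n - 1) ^ 2 ≤
      t * ∑ a ∈ P.erase p, ((P.erase p).filter (fun b => dist p b = dist p a)).card := by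
    intro p hp
    have h1 := sq_card_le_card_image_mul (P.erase p) (fun q => dist p q)
    rw [Finset.card_erase_of_mem hp] at h1
    exact h1.trans (Nat.mul_le_mul_right _ (hmax p hp))
  have e1 : ∀ p ∈ P,
      ∑ a ∈ P.erase p, ((P.erase p).filter (fun b => dist p b = dist p a)).card =
      ∑ a ∈ P, ∑ b ∈ P, if (a ≠ p ∧ b ≠ p ∧ dist p b = dist p a) then 1 else 0 := by
    intro p _
    rw [← Finset.filter_ne' P p, Finset.sum_filter]
    apply Finset.sum_congr rfl
    intro a _
    by_cases hap : a = p
    · simp [hap]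
    · rw [if_pos hap, Finset.filter_filter, Finset.card_filter]
      apply Finset.sum_congr rfl
      intro b _
      simp [hap]
  have e2 : ∀ a ∈ P, ∑ p ∈ P, ∑ b ∈ P,
      (if (a ≠ p ∧ b ≠ p ∧ dist p b = dist p a) then 1 else 0) ≤ (n - 1) * (h + 1) := by
    intro a ha
    rw [Finset.sum_comm]
    have hb : ∀ b ∈ P.erase a, ∑ p ∈ P,
        (if (a ≠ p ∧ b ≠ p ∧ dist p b = dist p a) then 1 else 0) ≤ h := by
      intro b hb
      rw [← Finset.card_filter]
      have hba : b ≠ a := Finset.ne_of_mem_erase hb
      have hbP : b ∈ P := Finset.mem_of_mem_erase hb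
      calc (P.filter (fun p => a ≠ p ∧ b ≠ p ∧ dist p b = dist p a)).card
          ≤ (P.filter (fun p => dist p b = dist p a)).card := by
            apply Finset.card_le_card
            intro p hp
            rw [Finset.mem_filter] at hp ⊢
            exact ⟨hp.1, hp.2.2.2⟩
        _ ≤ h := hbis b hbP a ha hba
    have haa : ∑ p ∈ P, (if (a ≠ p ∧ a ≠ p ∧ dist p a = dist p a) then 1 else 0) ≤ n - 1 := by
      rw [← Finset.card_filter]
      calc (P.filter (fun p => a ≠ p ∧ a ≠ p ∧ dist p a = dist p a)).card
          ≤ (P.erase a).card := by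
            apply Finset.card_le_card
            intro p hp
            rw [Finset.mem_filter] at hp
            exact Finset.mem_erase.mpr ⟨fun h => hp.2.1 h.symm, hp.1⟩
        _ = n - 1 := Finset.card_erase_of_mem ha
    rw [← Finset.add_sum_erase P _ ha]
    calc _ ≤ (n - 1) + ∑ b ∈ P.erase a, h := add_le_add haa (Finset.sum_le_sum hb)
      _ = (n - 1) * (h + 1) := by
          rw [Finset.sum_const, Finset.card_erase_of_mem ha, smul_eq_mul]
          ring
  have hUp : ∑ p ∈ P, ∑ a ∈ P.erase p,
      ((P.erase p).filter (fun b => dist p b = dist p a)).card ≤ n * ((n - 1) * (h + 1)) := by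
    rw [Finset.sum_congr rfl e1, Finset.sum_comm]
    calc _ ≤ ∑ a ∈ P, (n - 1) * (h + 1) := Finset.sum_le_sum e2
      _ = n * ((n - 1) * (h + 1)) := by
          rw [Finset.sum_const, smul_eq_mul]
  have h1 : n * (n - 1) ^ 2 ≤ t * (n * ((n - 1) * (h + 1))) := by
    calc n * (n - 1) ^ 2 = ∑ p ∈ P, (n - 1) ^ 2 := by
          rw [Finset.sum_const, smul_eq_mul]
      _ ≤ ∑ p ∈ P, t * ∑ a ∈ P.erase p,
            ((P.erase p).filter (fun b => dist p b = dist p a)).card := Finset.sum_le_sum hCS
      _ = t * ∑ p ∈ P, ∑ a ∈ P.erase p,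
            ((P.erase p).filter (fun b => dist p b = dist p a)).card := by
          rw [Finset.mul_sum]
      _ ≤ t * (n * ((n - 1) * (h + 1))) := Nat.mul_le_mul_left _ hUp
  by_cases hn1 : n ≤ 1
  · have : n - 1 = 0 := by omega
    rw [this]
    exact Nat.zero_le _
  · have hpos : 0 < n * (n - 1) := Nat.mul_pos (by omega) (by omega)
    have h2 : n * (n - 1) * (n - 1) ≤ n * (n - 1) * ((h + 1) * t) := by
      calc n * (n - 1) * (n - 1) = n * (n - 1) ^ 2 := by ring
        _ ≤ t * (n * ((n - 1) * (h + 1))) := h1
        _ = n * (n - 1) * ((h + 1) * t) := by ring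
    exact Nat.le_of_mul_le_mul_left h2 hpos

end Vale.Agent.Lib.P054
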