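import Mathlib

/-!
# Counting solutions of linear congruences and linear equations in a box
-/

namespace Vale.Agent.Lib.P054

open Finset

/-- A finite set of integers in `[-T, T]` whose elements are pairwise congruent modulo `m`
has at most `2T/m + 1` elements. -/
theorem card_mul_le_of_dvd_sub (F : Finset ℤ) (m : ℕ) (hm : 0 < m) (T : ℕ)
    (hF : ∀ v ∈ F, -(T : ℤ) ≤ v ∧ v ≤ T) (hcong : ∀ v ∈ F, ∀ v' ∈ F, (m : ℤ) ∣ v - v') :
    F.card * m ≤ 2 * T + m := by
  rcases F.eq_empty_or_nonempty with rfl | hne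
  · simp
  set v0 := F.min' hne with hv0
  have hv0F : v0 ∈ F := F.min'_mem hne
  have hmZ : (0 : ℤ) < (m : ℤ) := by exact_mod_cast hm
  have hcard : F.card ≤ (Finset.range (2 * T / m + 1)).card := by
    apply Finset.card_le_card_of_injOn (fun v => ((v - v0) / (m : ℤ)).toNat)
    · intro v hv
      have h1 : v0 ≤ v := F.min'_le v hv
      have h2 := hF v hv
      have h3 := hF v0 hv0F
      have hdiv := hcong v hv v0 hv0F
      have hk : (v - v0) / (m : ℤ) * m = v - v0 := Int.ediv_mul_cancel hdiv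
      have hk0 : 0 ≤ (v - v0) / (m : ℤ) := Int.ediv_nonneg (by linarith) hmZ.le
      rw [Finset.coe_range, Set.mem_Iio, Nat.lt_succ_iff, Nat.le_div_iff_mul_le hm]
      have h4 : (((v - v0) / (m : ℤ)).toNat : ℤ) * m ≤ 2 * T := by
        rw [Int.toNat_of_nonneg hk0, hk]
        linarith
      exact_mod_cast h4
    · intro v hv v' hv' heq
      have hv := Finset.mem_coe.mp hv
      have hv' := Finset.mem_coe.mp hv'
      have h1 : v0 ≤ v := F.min'_le v hv
      have h1' : v0 ≤ v' := F.min'_le v' hv'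
      have hk0 : 0 ≤ (v - v0) / (m : ℤ) := Int.ediv_nonneg (by linarith) hmZ.le
      have hk0' : 0 ≤ (v' - v0) / (m : ℤ) := Int.ediv_nonneg (by linarith) hmZ.le
      have e : (v - v0) / (m : ℤ) = (v' - v0) / (m : ℤ) := by
        have h5 : (((v - v0) / (m : ℤ)).toNat : ℤ) = (((v' - v0) / (m : ℤ)).toNat : ℤ) := by
          exact_mod_cast heq
        rwa [Int.toNat_of_nonneg hk0, Int.toNat_of_nonneg hk0'] at h5
      have hk : (v - v0) / (m : ℤ) * m = v - v0 := Int.ediv_mul_cancel (hcong v hv v0 hv0F)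
      have hk' : (v' - v0) / (m : ℤ) * m = v' - v0 :=
        Int.ediv_mul_cancel (hcong v' hv' v0 hv0F)
      rw [e] at hk
      linarith
  rw [Finset.card_range] at hcard
  calc F.card * m ≤ (2 * T / m + 1) * m := Nat.mul_le_mul_right m hcard
    _ = (2 * T / m) * m + m := by ring
    _ ≤ 2 * T + m := by
        have := Nat.div_mul_le_self (2 * T) m
        omega

/-- The number of solutions `v ∈ [-T, T]` of the congruence `a v ≡ c (mod g)` is at most
`2T gcd(a, g) / g + 1`. -/
theorem card_congr_le (g : ℕ) (hg : 0 < g) (a c : ℤ) (T : ℕ) :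
    ((Finset.Icc (-(T : ℤ)) T).filter (fun v => (g : ℤ) ∣ a * v - c)).card * g ≤
      2 * T * Int.gcd a g + g := by
  set d := Int.gcd a g with hd
  have hgZ : (g : ℤ) ≠ 0 := by exact_mod_cast hg.ne'
  have hdpos : 0 < d := Int.gcd_pos_of_ne_zero_right _ hgZ
  have hdg : d ∣ g := by
    have h := Int.gcd_dvd_right a g
    exact_mod_cast h
  obtain ⟨m, hm⟩ := hdg
  have hmpos : 0 < m := by
    rcases Nat.eq_zero_or_pos m with h | h
    · rw [h] at hm
      omega
    · exact h
  obtain ⟨a', ha'⟩ := Int.gcd_dvd_left a g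
  have hdZ : (d : ℤ) ≠ 0 := by exact_mod_cast hdpos.ne'
  have hcop : Int.gcd (m : ℤ) a' = 1 := by
    have h := Int.gcd_div_gcd_div_gcd (i := a) (j := (g : ℤ)) hdpos
    have e1 : a / (d : ℤ) = a' := by
      rw [ha']
      exact Int.mul_ediv_cancel_left a' hdZ
    have e2 : (g : ℤ) / (d : ℤ) = m := by
      rw [hm]
      push_cast
      exact Int.mul_ediv_cancel_left (m : ℤ) hdZ
    rw [← hd, e1, e2] at h
    rw [Int.gcd_comm]
    exact h
  have key := card_mul_le_of_dvd_sub
    ((Finset.Icc (-(T : ℤ)) T).filter (fun v => (g : ℤ) ∣ a * v - c)) m hmpos T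
    (fun v hv => Finset.mem_Icc.mp (Finset.mem_filter.mp hv).1)
    (fun v hv v' hv' => by
      have h1 := (Finset.mem_filter.mp hv).2
      have h2 := (Finset.mem_filter.mp hv').2
      have h3 : (g : ℤ) ∣ a * (v - v') := by
        have h4 := dvd_sub h1 h2
        have e : a * v - c - (a * v' - c) = a * (v - v') := by ring
        rwa [e] at h4
      have h5 : (d : ℤ) * (m : ℤ) ∣ (d : ℤ) * (a' * (v - v')) := by
        have e1 : ((d * m : ℕ) : ℤ) = (d : ℤ) * (m : ℤ) := by push_cast; ring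
        have e2 : a * (v - v') = (d : ℤ) * (a' * (v - v')) := by rw [ha']; ring
        rw [hm, e1, e2] at h3
        exact h3
      have h6 : (m : ℤ) ∣ a' * (v - v') := Int.dvd_of_mul_dvd_mul_left hdZ h5
      exact Int.dvd_of_dvd_mul_right_of_gcd_one h6 hcop)
  calc ((Finset.Icc (-(T : ℤ)) T).filter (fun v => (g : ℤ) ∣ a * v - c)).card * g
      = ((Finset.Icc (-(T : ℤ)) T).filter (fun v => (g : ℤ) ∣ a * v - c)).card * m * d := by
        rw [hm]
        ring
    _ ≤ (2 * T + m) * d := Nat.mul_le_mul_right d key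
    _ = 2 * T * d + g := by
        rw [hm]
        ring

end Vale.Agent.Lib.P054
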