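import Vale.Agent.Lib.P054.GcdSum

/-!
# Counting solutions of `a v + b w + e z = c` in six variables in a box
-/

namespace Vale.Agent.Lib.P054

open Finset

/-- the number of `(v, w, z) ∈ [-S, S]³` with `a v + b w + e z = c` -/
noncomputable def cnt (S : ℕ) (c a b e : ℤ) : ℕ :=
  ∑ v ∈ Finset.Icc (-(S : ℤ)) S, ∑ w ∈ Finset.Icc (-(S : ℤ)) S, ∑ z ∈ Finset.Icc (-(S : ℤ)) S,
    if a * v + b * w + e * z = c then 1 else 0

/-- the number of `(a, b, e, v, w, z) ∈ [-S, S]⁶` with `a v + b w + e z = c` -/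
noncomputable def cnt6 (S : ℕ) (c : ℤ) : ℕ :=
  ∑ a ∈ Finset.Icc (-(S : ℤ)) S, ∑ b ∈ Finset.Icc (-(S : ℤ)) S, ∑ e ∈ Finset.Icc (-(S : ℤ)) S,
    cnt S c a b e

theorem sum3_swap13 {M : Type*} [AddCommMonoid M] (I : Finset ℤ) (F : ℤ → ℤ → ℤ → M) :
    ∑ x ∈ I, ∑ y ∈ I, ∑ z ∈ I, F x y z = ∑ x ∈ I, ∑ y ∈ I, ∑ z ∈ I, F z y x := by
  calc ∑ x ∈ I, ∑ y ∈ I, ∑ z ∈ I, F x y z
      = ∑ y ∈ I, ∑ x ∈ I, ∑ z ∈ I, F x y z := Finset.sum_comm
    _ = ∑ y ∈ I, ∑ z ∈ I, ∑ x ∈ I, F x y z :=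
        Finset.sum_congr rfl (fun y _ => Finset.sum_comm)
    _ = ∑ z ∈ I, ∑ y ∈ I, ∑ x ∈ I, F x y z := Finset.sum_comm

theorem sum3_swap12 {M : Type*} [AddCommMonoid M] (I : Finset ℤ) (F : ℤ → ℤ → ℤ → M) :
    ∑ x ∈ I, ∑ y ∈ I, ∑ z ∈ I, F x y z = ∑ x ∈ I, ∑ y ∈ I, ∑ z ∈ I, F y x z :=
  Finset.sum_comm

theorem cnt_swap12 (S : ℕ) (c a b e : ℤ) : cnt S c a b e = cnt S c b a e := by
  unfold cnt
  rw [sum3_swap12]
  refine Finset.sum_congr rfl (fun x _ => Finset.sum_congr rfl (fun y _ =>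
    Finset.sum_congr rfl (fun z _ => ?_)))
  have : (a * y + b * x + e * z = c) ↔ (b * x + a * y + e * z = c) := by
    constructor <;> intro h <;> linarith
  simp only [this]

theorem cnt_swap13 (S : ℕ) (c a b e : ℤ) : cnt S c a b e = cnt S c e b a := by
  unfold cnt
  rw [sum3_swap13]
  refine Finset.sum_congr rfl (fun x _ => Finset.sum_congr rfl (fun y _ =>
    Finset.sum_congr rfl (fun z _ => ?_)))
  have : (a * z + b * y + e * x = c) ↔ (e * x + b * y + a * z = c) := by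
    constructor <;> intro h <;> linarith
  simp only [this]

theorem cnt_le (S : ℕ) (c a b e : ℤ) : cnt S c a b e ≤ (2 * S + 1) ^ 3 := by
  unfold cnt
  have hcard : (Finset.Icc (-(S : ℤ)) S).card = 2 * S + 1 := by
    rw [Int.card_Icc]
    have : (S : ℤ) + 1 - -(S : ℤ) = ((2 * S + 1 : ℕ) : ℤ) := by push_cast; ring
    rw [this, Int.toNat_natCast]
  calc ∑ v ∈ Finset.Icc (-(S : ℤ)) S, ∑ w ∈ Finset.Icc (-(S : ℤ)) S,
        ∑ z ∈ Finset.Icc (-(S : ℤ)) S, (if a * v + b * w + e * z = c then 1 else 0)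
      ≤ ∑ v ∈ Finset.Icc (-(S : ℤ)) S, ∑ w ∈ Finset.Icc (-(S : ℤ)) S,
        ∑ z ∈ Finset.Icc (-(S : ℤ)) S, 1 := by
        refine Finset.sum_le_sum (fun v _ => Finset.sum_le_sum (fun w _ =>
          Finset.sum_le_sum (fun z _ => ?_)))
        split_ifs <;> omega
    _ = (2 * S + 1) ^ 3 := by
        simp only [Finset.sum_const, hcard, smul_eq_mul]
        ring

/-- the pivot bound for one coefficient triple -/
theorem cnt_mul_le (S : ℕ) (c a b e : ℤ) (ha : a ≠ 0) :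
    cnt S c a b e * a.natAbs ≤
      4 * S ^ 2 * Nat.gcd (Int.gcd a b) e.natAbs + (4 * S + 1) * a.natAbs := by
  have h := card_triples_le a b e c ha S
  have e1 : ((Finset.Icc (-(S : ℤ)) S ×ˢ (Finset.Icc (-(S : ℤ)) S ×ˢ Finset.Icc (-(S : ℤ)) S)).filter
      (fun p => e * p.1 + (a * p.2.1 + b * p.2.2) = c)).card = cnt S c a b e := by
    unfold cnt
    rw [Finset.card_filter, Finset.sum_product]
    simp only [Finset.sum_product]
    calc ∑ z ∈ Finset.Icc (-(S : ℤ)) S, ∑ v ∈ Finset.Icc (-(S : ℤ)) S,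
          ∑ w ∈ Finset.Icc (-(S : ℤ)) S, (if e * z + (a * v + b * w) = c then 1 else 0)
        = ∑ v ∈ Finset.Icc (-(S : ℤ)) S, ∑ z ∈ Finset.Icc (-(S : ℤ)) S,
          ∑ w ∈ Finset.Icc (-(S : ℤ)) S, (if e * z + (a * v + b * w) = c then 1 else 0) :=
          Finset.sum_comm
      _ = ∑ v ∈ Finset.Icc (-(S : ℤ)) S, ∑ w ∈ Finset.Icc (-(S : ℤ)) S,
          ∑ z ∈ Finset.Icc (-(S : ℤ)) S, (if e * z + (a * v + b * w) = c then 1 else 0) :=
          Finset.sum_congr rfl (fun v _ => Finset.sum_comm)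
      _ = _ := by
          refine Finset.sum_congr rfl (fun v _ => Finset.sum_congr rfl (fun w _ =>
            Finset.sum_congr rfl (fun z _ => ?_)))
          have : (e * z + (a * v + b * w) = c) ↔ (a * v + b * w + e * z = c) := by
            constructor <;> intro h <;> linarith
          simp only [this]
  rw [e1] at h
  exact h

/-- the pivot sum for a fixed nonzero `a` -/
theorem pivot_sum_le (S : ℕ) (c a : ℤ) (ha : a ≠ 0) (haS : a.natAbs ≤ S) :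
    ∑ b ∈ Finset.Icc (-(a.natAbs : ℤ)) a.natAbs, ∑ e ∈ Finset.Icc (-(a.natAbs : ℤ)) a.natAbs,
      cnt S c a b e ≤
      36 * S ^ 2 * (∑ g ∈ a.natAbs.divisors, g) + (4 * S + 1) * (2 * S + 1) ^ 2 := by
  set A := a.natAbs with hA
  have hApos : 0 < A := Int.natAbs_pos.mpr ha
  set J := Finset.Icc (-(A : ℤ)) A with hJ
  have hcard : J.card = 2 * A + 1 := by
    rw [hJ, Int.card_Icc]
    have : (A : ℤ) + 1 - -(A : ℤ) = ((2 * A + 1 : ℕ) : ℤ) := by push_cast; ring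
    rw [this, Int.toNat_natCast]
  have h1 : (∑ b ∈ J, ∑ e ∈ J, cnt S c a b e) * A ≤
      4 * S ^ 2 * (∑ b ∈ J, ∑ e ∈ J, Nat.gcd (Int.gcd a b) e.natAbs) +
        (4 * S + 1) * A * (2 * A + 1) ^ 2 := by
    rw [Finset.sum_mul]
    calc ∑ b ∈ J, (∑ e ∈ J, cnt S c a b e) * A
        = ∑ b ∈ J, ∑ e ∈ J, cnt S c a b e * A :=
          Finset.sum_congr rfl (fun b _ => Finset.sum_mul _ _ _)
      _ ≤ ∑ b ∈ J, ∑ e ∈ J, (4 * S ^ 2 * Nat.gcd (Int.gcd a b) e.natAbs + (4 * S + 1) * A) :=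
          Finset.sum_le_sum (fun b _ => Finset.sum_le_sum (fun e _ => cnt_mul_le S c a b e ha))
      _ = 4 * S ^ 2 * (∑ b ∈ J, ∑ e ∈ J, Nat.gcd (Int.gcd a b) e.natAbs) +
            (4 * S + 1) * A * (2 * A + 1) ^ 2 := by
          simp only [Finset.sum_add_distrib, Finset.sum_const, hcard, smul_eq_mul,
            ← Finset.mul_sum]
          ring
  have h2 := gcd_sum_le a ha
  rw [← hA, ← hJ] at h2
  have h3 : (2 * A + 1) ^ 2 ≤ (2 * S + 1) ^ 2 := Nat.pow_le_pow_left (by omega) 2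
  have h4 : A * (∑ b ∈ J, ∑ e ∈ J, cnt S c a b e) ≤
      A * (36 * S ^ 2 * (∑ g ∈ A.divisors, g) + (4 * S + 1) * (2 * S + 1) ^ 2) := by
    calc A * (∑ b ∈ J, ∑ e ∈ J, cnt S c a b e)
        = (∑ b ∈ J, ∑ e ∈ J, cnt S c a b e) * A := by ring
      _ ≤ 4 * S ^ 2 * (∑ b ∈ J, ∑ e ∈ J, Nat.gcd (Int.gcd a b) e.natAbs) +
            (4 * S + 1) * A * (2 * A + 1) ^ 2 := h1
      _ ≤ 4 * S ^ 2 * (9 * A * ∑ g ∈ A.divisors, g) +
            (4 * S + 1) * A * (2 * S + 1) ^ 2 :=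
          Nat.add_le_add (Nat.mul_le_mul_left _ h2) (Nat.mul_le_mul_left _ h3)
      _ = A * (36 * S ^ 2 * (∑ g ∈ A.divisors, g) + (4 * S + 1) * (2 * S + 1) ^ 2) := by ring
  exact Nat.le_of_mul_le_mul_left h4 hApos

/-- the pivot part of the count: the first coefficient is nonzero and has the largest
absolute value -/
noncomputable def piv (S : ℕ) (c a b e : ℤ) : ℕ :=
  if a ≠ 0 then (if b.natAbs ≤ a.natAbs then (if e.natAbs ≤ a.natAbs then cnt S c a b e else 0)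
    else 0) else 0

theorem piv_inner_le (S : ℕ) (c a : ℤ) (haI : a ∈ Finset.Icc (-(S : ℤ)) S) :
    ∑ b ∈ Finset.Icc (-(S : ℤ)) S, ∑ e ∈ Finset.Icc (-(S : ℤ)) S, piv S c a b e ≤
      if a ≠ 0 then 36 * S ^ 2 * (∑ g ∈ a.natAbs.divisors, g) + (4 * S + 1) * (2 * S + 1) ^ 2
      else 0 := by
  have haI' := Finset.mem_Icc.mp haI
  by_cases ha : a ≠ 0
  · rw [if_pos ha]
    have haS : a.natAbs ≤ S := by omega
    have hfil : (Finset.Icc (-(S : ℤ)) S).filter (fun b : ℤ => b.natAbs ≤ a.natAbs) =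
        Finset.Icc (-(a.natAbs : ℤ)) a.natAbs := by
      ext b
      simp only [Finset.mem_filter, Finset.mem_Icc]
      omega
    have e1 : ∑ b ∈ Finset.Icc (-(S : ℤ)) S, ∑ e ∈ Finset.Icc (-(S : ℤ)) S, piv S c a b e =
        ∑ b ∈ Finset.Icc (-(a.natAbs : ℤ)) a.natAbs,
          ∑ e ∈ Finset.Icc (-(a.natAbs : ℤ)) a.natAbs, cnt S c a b e := by
      unfold piv
      simp only [if_pos ha]
      have hin : ∀ b ∈ Finset.Icc (-(S : ℤ)) S, ∑ e ∈ Finset.Icc (-(S : ℤ)) S,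
          (if b.natAbs ≤ a.natAbs then (if e.natAbs ≤ a.natAbs then cnt S c a b e else 0)
            else 0) =
          if b.natAbs ≤ a.natAbs then
            ∑ e ∈ Finset.Icc (-(a.natAbs : ℤ)) a.natAbs, cnt S c a b e else 0 := by
        intro b _
        by_cases hb : b.natAbs ≤ a.natAbs
        · simp only [hb, if_true]
          rw [← Finset.sum_filter, hfil]
        · simp only [hb, if_false]
          exact Finset.sum_const_zero
      rw [Finset.sum_congr rfl hin, ← Finset.sum_filter, hfil]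
    rw [e1]
    exact pivot_sum_le S c a ha haS
  · rw [if_neg ha]
    apply le_of_eq
    unfold piv
    simp only [if_neg ha]
    simp

theorem card_ne_zero_le (S : ℕ) :
    ((Finset.Icc (-(S : ℤ)) S).filter (fun a => a ≠ 0)).card ≤ 2 * S := by
  have h := card_dvd_ne_zero_mul_le 1 Nat.one_pos S
  simpa using h

theorem piv_total_le (S : ℕ) (c : ℤ) :
    ∑ a ∈ Finset.Icc (-(S : ℤ)) S, ∑ b ∈ Finset.Icc (-(S : ℤ)) S,
      ∑ e ∈ Finset.Icc (-(S : ℤ)) S, piv S c a b e ≤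
      72 * S ^ 4 + 2 * S * ((4 * S + 1) * (2 * S + 1) ^ 2) := by
  calc ∑ a ∈ Finset.Icc (-(S : ℤ)) S, ∑ b ∈ Finset.Icc (-(S : ℤ)) S,
        ∑ e ∈ Finset.Icc (-(S : ℤ)) S, piv S c a b e
      ≤ ∑ a ∈ Finset.Icc (-(S : ℤ)) S,
          (if a ≠ 0 then 36 * S ^ 2 * (∑ g ∈ a.natAbs.divisors, g) +
            (4 * S + 1) * (2 * S + 1) ^ 2 else 0) :=
        Finset.sum_le_sum (fun a ha => piv_inner_le S c a ha)
    _ = ∑ a ∈ (Finset.Icc (-(S : ℤ)) S).filter (fun a => a ≠ 0),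
          (36 * S ^ 2 * (∑ g ∈ a.natAbs.divisors, g) + (4 * S + 1) * (2 * S + 1) ^ 2) := by
        rw [Finset.sum_filter]
    _ = 36 * S ^ 2 * (∑ a ∈ (Finset.Icc (-(S : ℤ)) S).filter (fun a => a ≠ 0),
          ∑ g ∈ a.natAbs.divisors, g) +
          ((Finset.Icc (-(S : ℤ)) S).filter (fun a => a ≠ 0)).card *
            ((4 * S + 1) * (2 * S + 1) ^ 2) := by
        rw [Finset.sum_add_distrib, Finset.sum_const, smul_eq_mul, ← Finset.mul_sum]
    _ ≤ 36 * S ^ 2 * (2 * S ^ 2) + 2 * S * ((4 * S + 1) * (2 * S + 1) ^ 2) :=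
        Nat.add_le_add (Nat.mul_le_mul_left _ (sigma_sum_le S))
          (Nat.mul_le_mul_right _ (card_ne_zero_le S))
    _ = 72 * S ^ 4 + 2 * S * ((4 * S + 1) * (2 * S + 1) ^ 2) := by ring

theorem cnt_le_piv (S : ℕ) (c a b e : ℤ) :
    cnt S c a b e ≤ piv S c a b e + piv S c b a e + piv S c e b a +
      (if a = 0 then (if b = 0 then (if e = 0 then (2 * S + 1) ^ 3 else 0) else 0) else 0) := by
  by_cases h0 : a = 0 ∧ b = 0 ∧ e = 0
  · obtain ⟨ha, hb, he⟩ := h0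
    simp only [ha, hb, he, if_true]
    have := cnt_le S c 0 0 0
    omega
  · have hmax : (a ≠ 0 ∧ b.natAbs ≤ a.natAbs ∧ e.natAbs ≤ a.natAbs) ∨
        (b ≠ 0 ∧ a.natAbs ≤ b.natAbs ∧ e.natAbs ≤ b.natAbs) ∨
        (e ≠ 0 ∧ b.natAbs ≤ e.natAbs ∧ a.natAbs ≤ e.natAbs) := by
      omega
    rcases hmax with ⟨h1, h2, h3⟩ | ⟨h1, h2, h3⟩ | ⟨h1, h2, h3⟩
    · have : piv S c a b e = cnt S c a b e := by
        unfold piv
        simp only [if_pos h1, if_pos h2, if_pos h3]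
      omega
    · have : piv S c b a e = cnt S c a b e := by
        unfold piv
        simp only [if_pos h1, if_pos h2, if_pos h3]
        exact (cnt_swap12 S c a b e).symm
      omega
    · have : piv S c e b a = cnt S c a b e := by
        unfold piv
        simp only [if_pos h1, if_pos h2, if_pos h3]
        exact (cnt_swap13 S c a b e).symm
      omega

/-- the six-variable count -/
theorem cnt6_le (S : ℕ) (hS : 1 ≤ S) (c : ℤ) : cnt6 S c ≤ 513 * S ^ 4 := by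
  set I := Finset.Icc (-(S : ℤ)) S with hI
  have h0I : (0 : ℤ) ∈ I := by
    rw [hI, Finset.mem_Icc]
    constructor <;> omega
  have hZ : ∑ a ∈ I, ∑ b ∈ I, ∑ e ∈ I,
      (if a = 0 then (if b = 0 then (if e = 0 then (2 * S + 1) ^ 3 else 0) else 0) else 0) =
      (2 * S + 1) ^ 3 := by
    have h3 : ∑ e ∈ I, (if e = 0 then (2 * S + 1) ^ 3 else 0) = (2 * S + 1) ^ 3 := by
      rw [Finset.sum_ite_eq' I 0]
      simp only [h0I, if_true]
    have h2 : ∑ b ∈ I, ∑ e ∈ I, (if b = 0 then (if e = 0 then (2 * S + 1) ^ 3 else 0) else 0) =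
        (2 * S + 1) ^ 3 := by
      have : ∀ b ∈ I, ∑ e ∈ I, (if b = 0 then (if e = 0 then (2 * S + 1) ^ 3 else 0) else 0) =
          if b = 0 then (2 * S + 1) ^ 3 else 0 := by
        intro b _
        by_cases hb : b = 0
        · simp only [hb, if_true]
          exact h3
        · simp only [hb, if_false]
          exact Finset.sum_const_zero
      rw [Finset.sum_congr rfl this, Finset.sum_ite_eq' I 0]
      simp only [h0I, if_true]
    have : ∀ a ∈ I, ∑ b ∈ I, ∑ e ∈ I,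
        (if a = 0 then (if b = 0 then (if e = 0 then (2 * S + 1) ^ 3 else 0) else 0) else 0) =
        if a = 0 then (2 * S + 1) ^ 3 else 0 := by
      intro a _
      by_cases ha : a = 0
      · simp only [ha, if_true]
        exact h2
      · simp only [ha, if_false]
        simp
    rw [Finset.sum_congr rfl this, Finset.sum_ite_eq' I 0]
    simp only [h0I, if_true]
  have hP := piv_total_le S c
  rw [← hI] at hP
  have hP2 : ∑ a ∈ I, ∑ b ∈ I, ∑ e ∈ I, piv S c b a e =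
      ∑ a ∈ I, ∑ b ∈ I, ∑ e ∈ I, piv S c a b e :=
    (sum3_swap12 I (fun a b e => piv S c a b e)).symm
  have hP3 : ∑ a ∈ I, ∑ b ∈ I, ∑ e ∈ I, piv S c e b a =
      ∑ a ∈ I, ∑ b ∈ I, ∑ e ∈ I, piv S c a b e :=
    (sum3_swap13 I (fun a b e => piv S c a b e)).symm
  have hmain : cnt6 S c ≤ 3 * (∑ a ∈ I, ∑ b ∈ I, ∑ e ∈ I, piv S c a b e) + (2 * S + 1) ^ 3 := by
    unfold cnt6
    rw [← hI]
    calc ∑ a ∈ I, ∑ b ∈ I, ∑ e ∈ I, cnt S c a b e
        ≤ ∑ a ∈ I, ∑ b ∈ I, ∑ e ∈ I, (piv S c a b e + piv S c b a e + piv S c e b a +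
            (if a = 0 then (if b = 0 then (if e = 0 then (2 * S + 1) ^ 3 else 0) else 0)
              else 0)) :=
          Finset.sum_le_sum (fun a _ => Finset.sum_le_sum (fun b _ =>
            Finset.sum_le_sum (fun e _ => cnt_le_piv S c a b e)))
      _ = ∑ a ∈ I, ∑ b ∈ I, ∑ e ∈ I, piv S c a b e +
          ∑ a ∈ I, ∑ b ∈ I, ∑ e ∈ I, piv S c b a e +
          ∑ a ∈ I, ∑ b ∈ I, ∑ e ∈ I, piv S c e b a +
          ∑ a ∈ I, ∑ b ∈ I, ∑ e ∈ I,
            (if a = 0 then (if b = 0 then (if e = 0 then (2 * S + 1) ^ 3 else 0) else 0)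
              else 0) := by
          simp only [Finset.sum_add_distrib]
      _ = 3 * (∑ a ∈ I, ∑ b ∈ I, ∑ e ∈ I, piv S c a b e) + (2 * S + 1) ^ 3 := by
          rw [hP2, hP3, hZ]
          ring
  have hS3 : S ^ 3 ≤ S ^ 4 := Nat.pow_le_pow_right hS (by norm_num)
  have hS2 : S ^ 2 ≤ S ^ 4 := Nat.pow_le_pow_right hS (by norm_num)
  have hS1 : S ≤ S ^ 4 := by
    calc S = S ^ 1 := (pow_one S).symm
      _ ≤ S ^ 4 := Nat.pow_le_pow_right hS (by norm_num)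
  have hS0 : 1 ≤ S ^ 4 := Nat.one_le_pow _ _ hS
  have hpoly : 3 * (72 * S ^ 4 + 2 * S * ((4 * S + 1) * (2 * S + 1) ^ 2)) + (2 * S + 1) ^ 3 =
      312 * S ^ 4 + 128 * S ^ 3 + 60 * S ^ 2 + 12 * S + 1 := by ring
  calc cnt6 S c ≤ 3 * (∑ a ∈ I, ∑ b ∈ I, ∑ e ∈ I, piv S c a b e) + (2 * S + 1) ^ 3 := hmain
    _ ≤ 3 * (72 * S ^ 4 + 2 * S * ((4 * S + 1) * (2 * S + 1) ^ 2)) + (2 * S + 1) ^ 3 :=
        Nat.add_le_add_right (Nat.mul_le_mul_left 3 hP) _
    _ = 312 * S ^ 4 + 128 * S ^ 3 + 60 * S ^ 2 + 12 * S + 1 := hpoly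
    _ ≤ 513 * S ^ 4 := by omega

end Vale.Agent.Lib.P054
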