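import Vale.Agent.Lib.P054.Count6

/-!
# The number of pairs of lattice points of a box with a prescribed difference of square norms
-/

namespace Vale.Agent.Lib.P054

open Finset

/-- the box `[-T, T]^d` of integer points -/
noncomputable def box (d T : ℕ) : Finset (Fin d → ℤ) :=
  Fintype.piFinset (fun _ => Finset.Icc (-(T : ℤ)) T)

/-- the number of pairs `(x, y)` of points of the box with `|x|² - |y|² = c` -/
noncomputable def energy (d T : ℕ) (c : ℤ) : ℕ :=
  ((box d T ×ˢ box d T).filter (fun p => ∑ i, ((p.1 i) ^ 2 - (p.2 i) ^ 2) = c)).card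

theorem mem_box {d T : ℕ} {x : Fin d → ℤ} :
    x ∈ box d T ↔ ∀ i, -(T : ℤ) ≤ x i ∧ x i ≤ T := by
  unfold box
  rw [Fintype.mem_piFinset]
  simp only [Finset.mem_Icc]

theorem cnt6_eq_card (S : ℕ) (c : ℤ) :
    cnt6 S c = ((Finset.Icc (-(S : ℤ)) S ×ˢ (Finset.Icc (-(S : ℤ)) S ×ˢ
      (Finset.Icc (-(S : ℤ)) S ×ˢ (Finset.Icc (-(S : ℤ)) S ×ˢ
      (Finset.Icc (-(S : ℤ)) S ×ˢ Finset.Icc (-(S : ℤ)) S))))).filter
      (fun q => q.1 * q.2.2.2.1 + q.2.1 * q.2.2.2.2.1 + q.2.2.1 * q.2.2.2.2.2 = c)).card := by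
  unfold cnt6 cnt
  rw [Finset.card_filter]
  simp only [Finset.sum_product]

theorem energy_three_le (T : ℕ) (c : ℤ) : energy 3 T c ≤ cnt6 (2 * T) c := by
  rw [cnt6_eq_card]
  unfold energy
  apply Finset.card_le_card_of_injOn
    (fun p : (Fin 3 → ℤ) × (Fin 3 → ℤ) =>
      (p.1 0 - p.2 0, (p.1 1 - p.2 1, (p.1 2 - p.2 2,
        (p.1 0 + p.2 0, (p.1 1 + p.2 1, p.1 2 + p.2 2))))))
  · intro p hp
    have hp' := Finset.mem_filter.mp (Finset.mem_coe.mp hp)
    have hb := Finset.mem_product.mp hp'.1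
    have h1 := mem_box.mp hb.1
    have h2 := mem_box.mp hb.2
    have heq := hp'.2
    rw [Fin.sum_univ_three] at heq
    apply Finset.mem_coe.mpr
    apply Finset.mem_filter.mpr
    have a0 := h1 0
    have a1 := h1 1
    have a2 := h1 2
    have b0 := h2 0
    have b1 := h2 1
    have b2 := h2 2
    refine ⟨?_, ?_⟩
    · simp only [Finset.mem_product, Finset.mem_Icc]
      push_cast
      refine ⟨⟨?_, ?_⟩, ⟨?_, ?_⟩, ⟨?_, ?_⟩, ⟨?_, ?_⟩, ⟨?_, ?_⟩, ⟨?_, ?_⟩⟩ <;> linarith
    · simp only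
      linarith
  · intro p hp q hq hpq
    simp only [Prod.mk.injEq] at hpq
    obtain ⟨e0, e1, e2, e3, e4, e5⟩ := hpq
    apply Prod.ext
    · funext i
      fin_cases i
      · show p.1 0 = q.1 0
        linarith
      · show p.1 1 = q.1 1
        linarith
      · show p.1 2 = q.1 2
        linarith
    · funext i
      fin_cases i
      · show p.2 0 = q.2 0
        linarith
      · show p.2 1 = q.2 1
        linarith
      · show p.2 2 = q.2 2
        linarith

theorem card_Icc_box (T : ℕ) : (Finset.Icc (-(T : ℤ)) T).card = 2 * T + 1 := by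
  rw [Int.card_Icc]
  have : (T : ℤ) + 1 - -(T : ℤ) = ((2 * T + 1 : ℕ) : ℤ) := by push_cast; ring
  rw [this, Int.toNat_natCast]

theorem energy_succ_le (d T B : ℕ) (hB : ∀ c, energy d T c ≤ B) (c : ℤ) :
    energy (d + 1) T c ≤ (2 * T + 1) ^ 2 * B := by
  set I := Finset.Icc (-(T : ℤ)) T with hI
  set E := ((box (d + 1) T ×ˢ box (d + 1) T).filter
    (fun p => ∑ i, ((p.1 i) ^ 2 - (p.2 i) ^ 2) = c)) with hE
  have hmaps : ∀ p ∈ E, (p.1 0, p.2 0) ∈ I ×ˢ I := by
    intro p hp
    have hp' := Finset.mem_filter.mp hp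
    have hb := Finset.mem_product.mp hp'.1
    have h1 := mem_box.mp hb.1 0
    have h2 := mem_box.mp hb.2 0
    exact Finset.mem_product.mpr ⟨Finset.mem_Icc.mpr h1, Finset.mem_Icc.mpr h2⟩
  have hfib : ∀ u ∈ I ×ˢ I, (E.filter (fun p => (p.1 0, p.2 0) = u)).card ≤ B := by
    intro u _
    refine le_trans ?_ (hB (c - (u.1 ^ 2 - u.2 ^ 2)))
    unfold energy
    apply Finset.card_le_card_of_injOn
      (fun p : (Fin (d + 1) → ℤ) × (Fin (d + 1) → ℤ) => (Fin.tail p.1, Fin.tail p.2))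
    · intro p hp
      have hp1 := Finset.mem_filter.mp (Finset.mem_coe.mp hp)
      have hp' := Finset.mem_filter.mp hp1.1
      have hb := Finset.mem_product.mp hp'.1
      have h1 := mem_box.mp hb.1
      have h2 := mem_box.mp hb.2
      have heq := hp'.2
      rw [Fin.sum_univ_succ] at heq
      have hu := hp1.2
      have hu1 : p.1 0 = u.1 := congrArg Prod.fst hu
      have hu2 : p.2 0 = u.2 := congrArg Prod.snd hu
      apply Finset.mem_coe.mpr
      apply Finset.mem_filter.mpr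
      refine ⟨Finset.mem_product.mpr ⟨mem_box.mpr (fun i => h1 i.succ),
        mem_box.mpr (fun i => h2 i.succ)⟩, ?_⟩
      simp only [Fin.tail]
      rw [← hu1, ← hu2]
      linarith
    · intro p hp q hq hpq
      have hp1 := Finset.mem_filter.mp (Finset.mem_coe.mp hp)
      have hq1 := Finset.mem_filter.mp (Finset.mem_coe.mp hq)
      have hup := hp1.2
      have huq := hq1.2
      simp only [Prod.mk.injEq] at hpq
      obtain ⟨e1, e2⟩ := hpq
      have hu1 : p.1 0 = q.1 0 := (congrArg Prod.fst hup).trans (congrArg Prod.fst huq).symm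
      have hu2 : p.2 0 = q.2 0 := (congrArg Prod.snd hup).trans (congrArg Prod.snd huq).symm
      apply Prod.ext
      · funext i
        refine Fin.cases hu1 (fun j => ?_) i
        exact congrFun e1 j
      · funext i
        refine Fin.cases hu2 (fun j => ?_) i
        exact congrFun e2 j
  unfold energy
  rw [← hE, Finset.card_eq_sum_card_fiberwise hmaps]
  calc ∑ u ∈ I ×ˢ I, (E.filter (fun p => (p.1 0, p.2 0) = u)).card
      ≤ ∑ _u ∈ I ×ˢ I, B := Finset.sum_le_sum hfib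
    _ = (2 * T + 1) ^ 2 * B := by
        rw [Finset.sum_const, Finset.card_product, hI, card_Icc_box, smul_eq_mul]
        ring

theorem energy_le (k T : ℕ) (hT : 1 ≤ T) (c : ℤ) :
    energy (k + 3) T c ≤ 8208 * 9 ^ k * T ^ (2 * k + 4) := by
  induction k generalizing c with
  | zero =>
    have h1 := energy_three_le T c
    have h2 := cnt6_le (2 * T) (by omega) c
    calc energy (0 + 3) T c = energy 3 T c := rfl
      _ ≤ 513 * (2 * T) ^ 4 := h1.trans h2
      _ = 8208 * 9 ^ 0 * T ^ (2 * 0 + 4) := by ring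
  | succ k ih =>
    have h1 := energy_succ_le (k + 3) T (8208 * 9 ^ k * T ^ (2 * k + 4)) ih c
    have h3 : 2 * T + 1 ≤ 3 * T := by omega
    have h4 : (2 * T + 1) ^ 2 ≤ (3 * T) ^ 2 := Nat.pow_le_pow_left h3 2
    calc energy (k + 1 + 3) T c = energy (k + 3 + 1) T c := rfl
      _ ≤ (2 * T + 1) ^ 2 * (8208 * 9 ^ k * T ^ (2 * k + 4)) := h1
      _ ≤ (3 * T) ^ 2 * (8208 * 9 ^ k * T ^ (2 * k + 4)) := Nat.mul_le_mul_right _ h4
      _ = 8208 * 9 ^ (k + 1) * T ^ (2 * (k + 1) + 4) := by ring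

end Vale.Agent.Lib.P054
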