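import Vale.Agent.Lib.P054.Linear

/-!
# Gcd sums and divisor sums over boxes
-/

namespace Vale.Agent.Lib.P054

open Finset

/-- multiples of `g` in `[-T, T]` -/
theorem card_dvd_mul_le (g : ℕ) (hg : 0 < g) (T : ℕ) :
    ((Finset.Icc (-(T : ℤ)) T).filter (fun v => (g : ℤ) ∣ v)).card * g ≤ 2 * T + g := by
  apply card_mul_le_of_dvd_sub _ g hg T
  · intro v hv
    exact Finset.mem_Icc.mp (Finset.mem_filter.mp hv).1
  · intro v hv v' hv'
    exact dvd_sub (Finset.mem_filter.mp hv).2 (Finset.mem_filter.mp hv').2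

/-- nonzero multiples of `g` in `[-T, T]` -/
theorem card_dvd_ne_zero_mul_le (g : ℕ) (hg : 0 < g) (T : ℕ) :
    ((Finset.Icc (-(T : ℤ)) T).filter (fun v => v ≠ 0 ∧ (g : ℤ) ∣ v)).card * g ≤ 2 * T := by
  have h := card_dvd_mul_le g hg T
  have h0 : (0 : ℤ) ∈ (Finset.Icc (-(T : ℤ)) T).filter (fun v => (g : ℤ) ∣ v) := by
    simp
  have e : (Finset.Icc (-(T : ℤ)) T).filter (fun v => v ≠ 0 ∧ (g : ℤ) ∣ v) =
      ((Finset.Icc (-(T : ℤ)) T).filter (fun v => (g : ℤ) ∣ v)).erase 0 := by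
    ext v
    simp only [Finset.mem_filter, Finset.mem_erase]
    tauto
  rw [e, Finset.card_erase_of_mem h0]
  have hpos : 0 < ((Finset.Icc (-(T : ℤ)) T).filter (fun v => (g : ℤ) ∣ v)).card :=
    Finset.card_pos.mpr ⟨0, h0⟩
  have : (((Finset.Icc (-(T : ℤ)) T).filter (fun v => (g : ℤ) ∣ v)).card - 1) * g + g =
      ((Finset.Icc (-(T : ℤ)) T).filter (fun v => (g : ℤ) ∣ v)).card * g := by
    rw [Nat.sub_mul, one_mul]
    apply Nat.sub_add_cancel
    exact Nat.le_mul_of_pos_left g hpos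
  omega

/-- the gcd sum over a square box of half-width `A = |a|` -/
theorem gcd_sum_le (a : ℤ) (ha : a ≠ 0) :
    ∑ b ∈ Finset.Icc (-(a.natAbs : ℤ)) a.natAbs, ∑ e ∈ Finset.Icc (-(a.natAbs : ℤ)) a.natAbs,
      Nat.gcd (Int.gcd a b) e.natAbs ≤ 9 * a.natAbs * ∑ g ∈ a.natAbs.divisors, g := by
  set A := a.natAbs with hA
  have hApos : 0 < A := Int.natAbs_pos.mpr ha
  set J := Finset.Icc (-(A : ℤ)) A with hJ
  -- pointwise bound
  have hpt : ∀ b e : ℤ, Nat.gcd (Int.gcd a b) e.natAbs ≤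
      ∑ g ∈ A.divisors, (if (g : ℤ) ∣ b then (if (g : ℤ) ∣ e then g else 0) else 0) := by
    intro b e
    set G := Nat.gcd (Int.gcd a b) e.natAbs with hG
    have hGa : G ∣ A := by
      have h1 : G ∣ Int.gcd a b := Nat.gcd_dvd_left _ _
      have h2 : Int.gcd a b ∣ A := by
        rw [Int.gcd_eq_natAbs]
        exact Nat.gcd_dvd_left _ _
      exact h1.trans h2
    have hGb : (G : ℤ) ∣ b := by
      have h1 : G ∣ Int.gcd a b := Nat.gcd_dvd_left _ _
      have h2 : ((Int.gcd a b : ℕ) : ℤ) ∣ b := Int.gcd_dvd_right a b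
      exact (Int.natCast_dvd_natCast.mpr h1).trans h2
    have hGe : (G : ℤ) ∣ e := by
      have h1 : G ∣ e.natAbs := Nat.gcd_dvd_right _ _
      exact Int.natCast_dvd.mpr h1
    have hmem : G ∈ A.divisors := Nat.mem_divisors.mpr ⟨hGa, hApos.ne'⟩
    have hsingle := Finset.single_le_sum
      (f := fun g : ℕ => (if (g : ℤ) ∣ b then (if (g : ℤ) ∣ e then g else 0) else 0))
      (s := A.divisors) (fun i _ => Nat.zero_le _) hmem
    simp only [hGb, hGe, if_true] at hsingle
    exact hsingle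
  -- sum
  have hsum : ∑ b ∈ J, ∑ e ∈ J, Nat.gcd (Int.gcd a b) e.natAbs ≤
      ∑ g ∈ A.divisors, g * ((J.filter (fun v => (g : ℤ) ∣ v)).card *
        (J.filter (fun v => (g : ℤ) ∣ v)).card) := by
    calc ∑ b ∈ J, ∑ e ∈ J, Nat.gcd (Int.gcd a b) e.natAbs
        ≤ ∑ b ∈ J, ∑ e ∈ J, ∑ g ∈ A.divisors,
            (if (g : ℤ) ∣ b then (if (g : ℤ) ∣ e then g else 0) else 0) :=
          Finset.sum_le_sum (fun b _ => Finset.sum_le_sum (fun e _ => hpt b e))
      _ = ∑ b ∈ J, ∑ g ∈ A.divisors, ∑ e ∈ J,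
            (if (g : ℤ) ∣ b then (if (g : ℤ) ∣ e then g else 0) else 0) :=
          Finset.sum_congr rfl (fun b _ => Finset.sum_comm)
      _ = ∑ g ∈ A.divisors, ∑ b ∈ J, ∑ e ∈ J,
            (if (g : ℤ) ∣ b then (if (g : ℤ) ∣ e then g else 0) else 0) := Finset.sum_comm
      _ = ∑ g ∈ A.divisors, g * ((J.filter (fun v => (g : ℤ) ∣ v)).card *
            (J.filter (fun v => (g : ℤ) ∣ v)).card) := by
          apply Finset.sum_congr rfl
          intro g _
          have hin : ∀ b ∈ J, ∑ e ∈ J,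
              (if (g : ℤ) ∣ b then (if (g : ℤ) ∣ e then g else 0) else 0) =
              if (g : ℤ) ∣ b then (J.filter (fun v => (g : ℤ) ∣ v)).card * g else 0 := by
            intro b _
            by_cases hb : (g : ℤ) ∣ b
            · simp only [hb, if_true]
              rw [← Finset.sum_filter, Finset.sum_const, smul_eq_mul]
            · simp only [hb, if_false]
              exact Finset.sum_const_zero
          rw [Finset.sum_congr rfl hin, ← Finset.sum_filter, Finset.sum_const, smul_eq_mul]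
          ring
  have hterm : ∀ g ∈ A.divisors, g * ((J.filter (fun v => (g : ℤ) ∣ v)).card *
        (J.filter (fun v => (g : ℤ) ∣ v)).card) ≤ 9 * A * (A / g) := by
    intro g hg
    have hgA : g ∣ A := (Nat.mem_divisors.mp hg).1
    have hgpos : 0 < g := Nat.pos_of_mem_divisors hg
    have hgle : g ≤ A := Nat.le_of_dvd hApos hgA
    obtain ⟨m, hm⟩ := hgA
    have hdiv : A / g = m := by
      rw [hm]
      exact Nat.mul_div_cancel_left m hgpos
    rw [hdiv]
    set c := (J.filter (fun v => (g : ℤ) ∣ v)).card with hc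
    have hcg' : c * g ≤ 2 * A + g := card_dvd_mul_le g hgpos A
    have hcg : c * g ≤ 3 * A := by omega
    -- g * (c * c) ≤ 9 * A * m, where A = g * m
    have h1 : g * (g * (c * c)) ≤ g * (9 * A * m) := by
      calc g * (g * (c * c)) = (c * g) * (c * g) := by ring
        _ ≤ (3 * A) * (3 * A) := Nat.mul_le_mul hcg hcg
        _ = g * (9 * A * m) := by
            conv_lhs => rw [hm]
            rw [hm]
            ring
    exact Nat.le_of_mul_le_mul_left h1 hgpos
  calc ∑ b ∈ J, ∑ e ∈ J, Nat.gcd (Int.gcd a b) e.natAbs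
      ≤ ∑ g ∈ A.divisors, g * ((J.filter (fun v => (g : ℤ) ∣ v)).card *
        (J.filter (fun v => (g : ℤ) ∣ v)).card) := hsum
    _ ≤ ∑ g ∈ A.divisors, 9 * A * (A / g) := Finset.sum_le_sum hterm
    _ = 9 * A * ∑ g ∈ A.divisors, A / g := by rw [Finset.mul_sum]
    _ = 9 * A * ∑ g ∈ A.divisors, g :=
        congrArg (fun t => 9 * A * t) (Nat.sum_div_divisors A (fun x => x))

/-- the sum of the divisor sums of `|a|` over nonzero `a ∈ [-S, S]` -/
theorem sigma_sum_le (S : ℕ) :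
    ∑ a ∈ (Finset.Icc (-(S : ℤ)) S).filter (fun a => a ≠ 0), ∑ g ∈ a.natAbs.divisors, g ≤
      2 * S ^ 2 := by
  set I' := (Finset.Icc (-(S : ℤ)) S).filter (fun a => a ≠ 0) with hI'
  have h1 : ∀ a ∈ I', ∑ g ∈ a.natAbs.divisors, g ≤
      ∑ g ∈ Finset.Icc 1 S, (if (g : ℤ) ∣ a then g else 0) := by
    intro a ha
    have ha' := Finset.mem_filter.mp ha
    have hI := Finset.mem_Icc.mp ha'.1
    have hsub : a.natAbs.divisors ⊆ (Finset.Icc 1 S).filter (fun g : ℕ => (g : ℤ) ∣ a) := by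
      intro g hg
      have hgd : g ∣ a.natAbs := (Nat.mem_divisors.mp hg).1
      have hgpos : 0 < g := Nat.pos_of_mem_divisors hg
      have hapos : 0 < a.natAbs := Int.natAbs_pos.mpr ha'.2
      have hgle : g ≤ a.natAbs := Nat.le_of_dvd hapos hgd
      apply Finset.mem_filter.mpr
      refine ⟨Finset.mem_Icc.mpr ⟨hgpos, by omega⟩, Int.natCast_dvd.mpr hgd⟩
    rw [← Finset.sum_filter]
    exact Finset.sum_le_sum_of_subset hsub
  calc ∑ a ∈ I', ∑ g ∈ a.natAbs.divisors, g
      ≤ ∑ a ∈ I', ∑ g ∈ Finset.Icc 1 S, (if (g : ℤ) ∣ a then g else 0) := Finset.sum_le_sum h1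
    _ = ∑ g ∈ Finset.Icc 1 S, ∑ a ∈ I', (if (g : ℤ) ∣ a then g else 0) := Finset.sum_comm
    _ ≤ ∑ g ∈ Finset.Icc 1 S, 2 * S := by
        apply Finset.sum_le_sum
        intro g hg
        have hgpos : 0 < g := (Finset.mem_Icc.mp hg).1
        rw [← Finset.sum_filter, Finset.sum_const, smul_eq_mul, hI', Finset.filter_filter]
        exact card_dvd_ne_zero_mul_le g hgpos S
    _ = 2 * S ^ 2 := by
        rw [Finset.sum_const, Nat.card_Icc, smul_eq_mul]
        have : S + 1 - 1 = S := by omega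
        rw [this]
        ring

end Vale.Agent.Lib.P054
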