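import Vale.Agent.Lib.P054.Energy
import Vale.Agent.Lib.P054.Bisector

/-!
# Pinned distances in subsets of the integer grid, dimension at least three
-/

namespace Vale.Agent.Lib.P054

open Finset

/-- Subsets of the integer grid `{0, …, T}^d`, `d = k + 3`: every point `p` of `P` sees at least
`(|P| - 1)² / (8208 · 9^k · T^(2d - 2))` distinct distances to the other points of `P`. -/
theorem grid_pinned (k T : ℕ) (hT : 1 ≤ T) (P : Finset (EuclideanSpace ℝ (Fin (k + 3))))
    (hgrid : ∀ q ∈ P, ∀ i, ∃ m : ℕ, m ≤ T ∧ q i = (m : ℝ))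
    (p : EuclideanSpace ℝ (Fin (k + 3))) (hp : p ∈ P) :
    (P.card - 1) ^ 2 ≤
      8208 * 9 ^ k * T ^ (2 * k + 4) * ((P.erase p).image (fun q => dist p q)).card := by
  classical
  set S := P.erase p with hS
  have hCS := sq_card_le_card_image_mul S (fun q => dist p q)
  rw [hS, Finset.card_erase_of_mem hp, ← hS] at hCS
  -- integer coordinates
  set z : EuclideanSpace ℝ (Fin (k + 3)) → (Fin (k + 3) → ℤ) :=
    fun q i => ⌊q i⌋ - ⌊p i⌋ with hz
  have hzcast : ∀ q ∈ P, ∀ i, ((z q i : ℤ) : ℝ) = q i - p i := by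
    intro q hq i
    obtain ⟨m, _, hm⟩ := hgrid q hq i
    obtain ⟨m', _, hm'⟩ := hgrid p hp i
    simp only [hz]
    rw [hm, hm']
    push_cast
    rw [Int.floor_natCast, Int.floor_natCast]
    push_cast
    ring
  have hzbox : ∀ q ∈ P, z q ∈ box (k + 3) T := by
    intro q hq
    rw [mem_box]
    intro i
    obtain ⟨m, hmT, hm⟩ := hgrid q hq i
    obtain ⟨m', hmT', hm'⟩ := hgrid p hp i
    simp only [hz]
    rw [hm, hm', Int.floor_natCast, Int.floor_natCast]
    constructor <;> omega
  have hzinj : ∀ q ∈ P, ∀ q' ∈ P, z q = z q' → q = q' := by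
    intro q hq q' hq' h
    ext i
    have h1 := hzcast q hq i
    have h2 := hzcast q' hq' i
    rw [h] at h1
    linarith
  have hdist : ∀ q ∈ P, dist p q ^ 2 = ((∑ i, (z q i) ^ 2 : ℤ) : ℝ) := by
    intro q hq
    rw [EuclideanSpace.dist_eq, Real.sq_sqrt (Finset.sum_nonneg (fun i _ => sq_nonneg _))]
    push_cast
    apply Finset.sum_congr rfl
    intro i _
    rw [hzcast q hq i, Real.dist_eq, sq_abs]
    ring
  have hcol : ∑ a ∈ S, (S.filter (fun b => dist p b = dist p a)).card ≤
      energy (k + 3) T 0 := by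
    have e1 : ∑ a ∈ S, (S.filter (fun b => dist p b = dist p a)).card =
        ((S ×ˢ S).filter (fun ab => dist p ab.2 = dist p ab.1)).card := by
      rw [Finset.card_filter, Finset.sum_product]
      apply Finset.sum_congr rfl
      intro a _
      rw [Finset.card_filter]
    rw [e1]
    unfold energy
    apply Finset.card_le_card_of_injOn
      (fun ab : EuclideanSpace ℝ (Fin (k + 3)) × EuclideanSpace ℝ (Fin (k + 3)) =>
        (z ab.2, z ab.1))
    · intro ab hab
      have hab' := Finset.mem_filter.mp (Finset.mem_coe.mp hab)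
      have hmem := Finset.mem_product.mp hab'.1
      have ha : ab.1 ∈ P := Finset.mem_of_mem_erase hmem.1
      have hb : ab.2 ∈ P := Finset.mem_of_mem_erase hmem.2
      apply Finset.mem_coe.mpr
      apply Finset.mem_filter.mpr
      refine ⟨Finset.mem_product.mpr ⟨hzbox _ hb, hzbox _ ha⟩, ?_⟩
      have h1 := hdist _ ha
      have h2 := hdist _ hb
      rw [hab'.2, h1] at h2
      have h3 : (∑ i, (z ab.1 i) ^ 2 : ℤ) = ∑ i, (z ab.2 i) ^ 2 := by exact_mod_cast h2
      simp only
      rw [Finset.sum_sub_distrib]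
      linarith
    · intro ab hab ab' hab' heq
      have h1 := Finset.mem_filter.mp (Finset.mem_coe.mp hab)
      have h1' := Finset.mem_filter.mp (Finset.mem_coe.mp hab')
      have hmem := Finset.mem_product.mp h1.1
      have hmem' := Finset.mem_product.mp h1'.1
      simp only [Prod.mk.injEq] at heq
      apply Prod.ext
      · exact hzinj _ (Finset.mem_of_mem_erase hmem.1) _ (Finset.mem_of_mem_erase hmem'.1) heq.2
      · exact hzinj _ (Finset.mem_of_mem_erase hmem.2) _ (Finset.mem_of_mem_erase hmem'.2) heq.1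
  calc (P.card - 1) ^ 2
      ≤ (S.image (fun q => dist p q)).card *
          ∑ a ∈ S, (S.filter (fun b => dist p b = dist p a)).card := hCS
    _ ≤ (S.image (fun q => dist p q)).card * (8208 * 9 ^ k * T ^ (2 * k + 4)) :=
        Nat.mul_le_mul_left _ (hcol.trans (energy_le k T hT 0))
    _ = 8208 * 9 ^ k * T ^ (2 * k + 4) * (S.image (fun q => dist p q)).card := by ring

end Vale.Agent.Lib.P054
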