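import Vale.Agent.Lib.P054.Grid

/-!
# Dense subsets of the integer grid: the conjectured bound in pinned form
-/

namespace Vale.Agent.Lib.P054

open Finset

/-- A subset `P` of the grid `{0, …, T}^d` (`d = k + 3`) with at least `δ T^d` points:
every point of `P` sees at least `δ² |P|^(2/d) / (32832 · 9^k)` distinct distances to the other
points of `P`. -/
theorem grid_dense (k T : ℕ) (hT : 1 ≤ T) (δ : ℝ) (hδ : 0 < δ) (hδ1 : δ ≤ 1)
    (P : Finset (EuclideanSpace ℝ (Fin (k + 3)))) (hn : 2 ≤ P.card)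
    (hgrid : ∀ q ∈ P, ∀ i, ∃ m : ℕ, m ≤ T ∧ q i = (m : ℝ))
    (hdense : δ * (T : ℝ) ^ (k + 3) ≤ (P.card : ℝ))
    (p : EuclideanSpace ℝ (Fin (k + 3))) (hp : p ∈ P) :
    δ ^ 2 / (32832 * 9 ^ k) * (P.card : ℝ) ^ (2 / ((k : ℝ) + 3)) ≤
      (((P.erase p).image (fun q => dist p q)).card : ℝ) := by
  classical
  have hpin := grid_pinned k T hT P hgrid p hp
  set D := ((P.erase p).image (fun q => dist p q)).card with hD
  set n := P.card with hn'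
  have hpinR : ((n : ℝ) - 1) ^ 2 ≤ 8208 * 9 ^ k * (T : ℝ) ^ (2 * k + 4) * (D : ℝ) := by
    have h : (((n - 1) ^ 2 : ℕ) : ℝ) ≤ ((8208 * 9 ^ k * T ^ (2 * k + 4) * D : ℕ) : ℝ) := by
      exact_mod_cast hpin
    push_cast [Nat.cast_sub (by omega : 1 ≤ n)] at h
    exact h
  have hnR : (2 : ℝ) ≤ n := by exact_mod_cast hn
  have hTR : (1 : ℝ) ≤ T := by exact_mod_cast hT
  have hD0 : (0 : ℝ) ≤ D := Nat.cast_nonneg D
  set x := ((n : ℝ) / δ) ^ (1 / ((k : ℝ) + 3)) with hx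
  have hnδ : 0 < (n : ℝ) / δ := by positivity
  have hxpos : 0 < x := Real.rpow_pos_of_pos hnδ _
  have hk3 : (0 : ℝ) < (k : ℝ) + 3 := by positivity
  have hxd : x ^ (k + 3) = (n : ℝ) / δ := by
    rw [hx, ← Real.rpow_natCast, ← Real.rpow_mul hnδ.le]
    have : 1 / ((k : ℝ) + 3) * ((k + 3 : ℕ) : ℝ) = 1 := by
      push_cast
      field_simp
    rw [this, Real.rpow_one]
  have hTx : (T : ℝ) ≤ x := by
    have h1 : (T : ℝ) ^ (k + 3) ≤ x ^ (k + 3) := by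
      rw [hxd, le_div_iff₀ hδ]
      calc (T : ℝ) ^ (k + 3) * δ = δ * (T : ℝ) ^ (k + 3) := by ring
        _ ≤ n := hdense
    exact le_of_pow_le_pow_left₀ (by omega) hxpos.le h1
  have h2 : (T : ℝ) ^ (2 * k + 4) * x ^ 2 ≤ ((n : ℝ) / δ) ^ 2 := by
    calc (T : ℝ) ^ (2 * k + 4) * x ^ 2 ≤ x ^ (2 * k + 4) * x ^ 2 := by
          apply mul_le_mul_of_nonneg_right _ (by positivity)
          exact pow_le_pow_left₀ (by positivity) hTx _
      _ = (x ^ (k + 3)) ^ 2 := by ring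
      _ = ((n : ℝ) / δ) ^ 2 := by rw [hxd]
  have hx2 : (n : ℝ) ^ (2 / ((k : ℝ) + 3)) ≤ x ^ 2 := by
    have e : x ^ 2 = ((n : ℝ) / δ) ^ (2 / ((k : ℝ) + 3)) := by
      rw [hx, ← Real.rpow_natCast, ← Real.rpow_mul hnδ.le]
      congr 1
      push_cast
      ring
    rw [e]
    apply Real.rpow_le_rpow (by positivity)
    · rw [le_div_iff₀ hδ]
      nlinarith
    · positivity
  have h3 : ((n : ℝ)) ^ 2 / 4 ≤ ((n : ℝ) - 1) ^ 2 := by nlinarith
  have h4 : (n : ℝ) ^ 2 / 4 * x ^ 2 ≤ 8208 * 9 ^ k * ((n : ℝ) / δ) ^ 2 * D := by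
    calc (n : ℝ) ^ 2 / 4 * x ^ 2 ≤ ((n : ℝ) - 1) ^ 2 * x ^ 2 :=
          mul_le_mul_of_nonneg_right h3 (by positivity)
      _ ≤ 8208 * 9 ^ k * (T : ℝ) ^ (2 * k + 4) * D * x ^ 2 :=
          mul_le_mul_of_nonneg_right hpinR (by positivity)
      _ = 8208 * 9 ^ k * D * ((T : ℝ) ^ (2 * k + 4) * x ^ 2) := by ring
      _ ≤ 8208 * 9 ^ k * D * ((n : ℝ) / δ) ^ 2 :=
          mul_le_mul_of_nonneg_left h2 (by positivity)
      _ = 8208 * 9 ^ k * ((n : ℝ) / δ) ^ 2 * D := by ring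
  have h5 : δ ^ 2 * x ^ 2 ≤ 32832 * 9 ^ k * D := by
    have hn0 : (0 : ℝ) < n := by linarith
    have h7 : (n : ℝ) ^ 2 * (δ ^ 2 * x ^ 2) ≤ (n : ℝ) ^ 2 * (32832 * 9 ^ k * D) := by
      have e : ((n : ℝ) / δ) ^ 2 = (n : ℝ) ^ 2 / δ ^ 2 := by rw [div_pow]
      rw [e] at h4
      have h6 : (n : ℝ) ^ 2 / 4 * x ^ 2 * (4 * δ ^ 2) ≤
          8208 * 9 ^ k * ((n : ℝ) ^ 2 / δ ^ 2) * D * (4 * δ ^ 2) :=
        mul_le_mul_of_nonneg_right h4 (by positivity)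
      have e1 : (n : ℝ) ^ 2 / 4 * x ^ 2 * (4 * δ ^ 2) = (n : ℝ) ^ 2 * (δ ^ 2 * x ^ 2) := by ring
      have e2 : 8208 * 9 ^ k * ((n : ℝ) ^ 2 / δ ^ 2) * D * (4 * δ ^ 2) =
          (n : ℝ) ^ 2 * (32832 * 9 ^ k * D) := by
        field_simp
        ring
      rw [e1, e2] at h6
      exact h6
    exact le_of_mul_le_mul_left h7 (by positivity)
  calc δ ^ 2 / (32832 * 9 ^ k) * (n : ℝ) ^ (2 / ((k : ℝ) + 3))
      ≤ δ ^ 2 / (32832 * 9 ^ k) * x ^ 2 := mul_le_mul_of_nonneg_left hx2 (by positivity)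
    _ = δ ^ 2 * x ^ 2 / (32832 * 9 ^ k) := by ring
    _ ≤ D := by
        rw [div_le_iff₀ (by positivity)]
        linarith

/-- the pinned distances from `p` are among all the distances of `P` -/
theorem pinned_card_le_distances {α : Type*} [MetricSpace α] [DecidableEq α] (P : Finset α)
    (p : α) (hp : p ∈ P) :
    ((P.erase p).image (fun q => dist p q)).card ≤
      (P.offDiag.image (fun pq => dist pq.1 pq.2)).card := by
  apply Finset.card_le_card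
  intro r hr
  obtain ⟨q, hq, rfl⟩ := Finset.mem_image.mp hr
  apply Finset.mem_image.mpr
  refine ⟨(p, q), ?_, rfl⟩
  rw [Finset.mem_offDiag]
  exact ⟨hp, Finset.mem_of_mem_erase hq, (Finset.ne_of_mem_erase hq).symm⟩

end Vale.Agent.Lib.P054
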