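import Vale.Agent.Lib.P054.Bisector

/-!
# Point sets with few points on every hyperplane
-/

namespace Vale.Agent.Lib.P054

open Finset

variable {d : ℕ}

/-- points equidistant from `a` and `b` lie on a hyperplane -/
theorem inner_eq_of_dist_eq {a b p : EuclideanSpace ℝ (Fin d)} (h : dist p a = dist p b) :
    inner ℝ (a - b) p = (‖a‖ ^ 2 - ‖b‖ ^ 2) / 2 := by
  rw [dist_eq_norm, dist_eq_norm] at h
  have h2 : ‖p - a‖ ^ 2 = ‖p - b‖ ^ 2 := by rw [h]
  rw [norm_sub_sq_real, norm_sub_sq_real] at h2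
  rw [inner_sub_left, real_inner_comm p a, real_inner_comm p b]
  linarith

theorem pinned_of_hyperplane_le (P : Finset (EuclideanSpace ℝ (Fin d))) (hP : P.Nonempty) (h : ℕ)
    (hH : ∀ (v : EuclideanSpace ℝ (Fin d)) (c : ℝ), v ≠ 0 →
      (P.filter (fun p => inner ℝ v p = c)).card ≤ h) :
    ∃ p ∈ P, P.card - 1 ≤ (h + 1) * ((P.erase p).image (fun q => dist p q)).card := by
  classical
  apply exists_pinned_of_equidistant_le P hP h
  intro a _ b _ hab
  refine le_trans (Finset.card_le_card ?_) (hH (a - b) ((‖a‖ ^ 2 - ‖b‖ ^ 2) / 2) (sub_ne_zero.mpr hab))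
  intro p hp
  rw [Finset.mem_filter] at hp ⊢
  exact ⟨hp.1, inner_eq_of_dist_eq hp.2⟩

/-- the set of distinct distances determined by `P` contains the distances from any point -/
theorem pinned_card_le (P : Finset (EuclideanSpace ℝ (Fin d))) {p : EuclideanSpace ℝ (Fin d)}
    (hp : p ∈ P) :
    ((P.erase p).image (fun q => dist p q)).card ≤
      (P.offDiag.image (fun pq => dist pq.1 pq.2)).card := by
  classical
  apply Finset.card_le_card
  intro r hr
  rw [Finset.mem_image] at hr ⊢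
  obtain ⟨q, hq, rfl⟩ := hr
  exact ⟨(p, q), Finset.mem_offDiag.mpr ⟨hp, Finset.mem_of_mem_erase hq,
    (Finset.ne_of_mem_erase hq).symm⟩, rfl⟩

theorem distances_of_sparse_hyperplanes (hd : 2 ≤ d) (P : Finset (EuclideanSpace ℝ (Fin d)))
    (hn : 2 ≤ P.card) (K : ℝ) (hK : 1 ≤ K)
    (hH : ∀ (v : EuclideanSpace ℝ (Fin d)) (c : ℝ), v ≠ 0 →
      ((P.filter (fun p => inner ℝ v p = c)).card : ℝ) ≤ K * (P.card : ℝ) ^ (1 - 2 / (d : ℝ))) :
    (P.card : ℝ) ^ (2 / (d : ℝ)) / (4 * K) ≤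
      ((P.offDiag.image (fun pq => dist pq.1 pq.2)).card : ℝ) := by
  classical
  have hP : P.Nonempty := Finset.card_pos.mp (by omega)
  set n : ℝ := (P.card : ℝ) with hn'
  have hn2 : (2 : ℝ) ≤ n := by
    rw [hn']
    exact_mod_cast hn
  have hnpos : 0 < n := by linarith
  have hdR : (2 : ℝ) ≤ (d : ℝ) := by exact_mod_cast hd
  set A : ℝ := n ^ (2 / (d : ℝ)) with hA
  have hApos : 0 < A := Real.rpow_pos_of_pos hnpos _
  have hexp : 2 / (d : ℝ) ≤ 1 := by
    rw [div_le_one (by linarith)]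
    exact hdR
  have hAle : A ≤ n := by
    have h1 : n ^ (2 / (d : ℝ)) ≤ n ^ (1 : ℝ) :=
      Real.rpow_le_rpow_of_exponent_le (by linarith) hexp
    rwa [Real.rpow_one] at h1
  have hsub : n ^ (1 - 2 / (d : ℝ)) = n / A := by
    rw [Real.rpow_sub hnpos, Real.rpow_one]
  set h : ℕ := ⌊K * (n / A)⌋₊ with hh
  have hnonneg : 0 ≤ K * (n / A) := by positivity
  have hH' : ∀ (v : EuclideanSpace ℝ (Fin d)) (c : ℝ), v ≠ 0 →
      (P.filter (fun p => inner ℝ v p = c)).card ≤ h := by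
    intro v c hv
    have h1 := hH v c hv
    rw [hsub] at h1
    exact Nat.le_floor h1
  obtain ⟨p, hp, hpin⟩ := pinned_of_hyperplane_le P hP h hH'
  have hle := pinned_card_le P hp
  set D : ℕ := (P.offDiag.image (fun pq => dist pq.1 pq.2)).card with hD
  have h3 : P.card - 1 ≤ (h + 1) * D := hpin.trans (Nat.mul_le_mul_left _ hle)
  have h4 : n - 1 ≤ ((h : ℝ) + 1) * (D : ℝ) := by
    have h5 : ((P.card - 1 : ℕ) : ℝ) ≤ (((h + 1) * D : ℕ) : ℝ) := by exact_mod_cast h3
    rw [Nat.cast_sub (by omega)] at h5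
    push_cast at h5
    exact h5
  have hfl : (h : ℝ) ≤ K * (n / A) := Nat.floor_le hnonneg
  by_contra hcon
  have hcon' := not_le.mp hcon
  have hDnn : (0 : ℝ) ≤ (D : ℝ) := Nat.cast_nonneg D
  have hKpos : 0 < K := by linarith
  have h6 : ((h : ℝ) + 1) * (D : ℝ) ≤ (K * (n / A) + 1) * (D : ℝ) :=
    mul_le_mul_of_nonneg_right (by linarith) hDnn
  have h7 : (K * (n / A) + 1) * (D : ℝ) < (K * (n / A) + 1) * (A / (4 * K)) :=
    mul_lt_mul_of_pos_left hcon' (by positivity)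
  have h8 : (K * (n / A) + 1) * (A / (4 * K)) = n / 4 + A / (4 * K) := by
    field_simp
  have h9 : A / (4 * K) ≤ n / 4 := by
    rw [div_le_div_iff₀ (by positivity) (by norm_num)]
    nlinarith
  linarith

end Vale.Agent.Lib.P054
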