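import Vale.Agent.Lib.P054.Congr

/-!
# Linear equations in two and three unknowns in a box
-/

namespace Vale.Agent.Lib.P054

open Finset

/-- solutions `(v, w) ∈ [-T, T]²` of `a v + b w = c`, `a ≠ 0` -/
theorem card_pairs_le (a b c : ℤ) (ha : a ≠ 0) (T : ℕ) :
    ((Finset.Icc (-(T : ℤ)) T ×ˢ Finset.Icc (-(T : ℤ)) T).filter
      (fun p => a * p.1 + b * p.2 = c)).card * a.natAbs ≤
      2 * T * Int.gcd a b + a.natAbs := by
  have hinj : ((Finset.Icc (-(T : ℤ)) T ×ˢ Finset.Icc (-(T : ℤ)) T).filter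
      (fun p => a * p.1 + b * p.2 = c)).card ≤
      ((Finset.Icc (-(T : ℤ)) T).filter (fun w => (a.natAbs : ℤ) ∣ b * w - c)).card := by
    apply Finset.card_le_card_of_injOn (fun p => p.2)
    · intro p hp
      have hp' := Finset.mem_filter.mp (Finset.mem_coe.mp hp)
      apply Finset.mem_coe.mpr
      apply Finset.mem_filter.mpr
      refine ⟨(Finset.mem_product.mp hp'.1).2, ?_⟩
      rw [Int.natAbs_dvd]
      exact ⟨-p.1, by linarith [hp'.2]⟩
    · intro p hp q hq hpq
      have hp' := (Finset.mem_filter.mp (Finset.mem_coe.mp hp)).2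
      have hq' := (Finset.mem_filter.mp (Finset.mem_coe.mp hq)).2
      have h2 : p.2 = q.2 := hpq
      have h1 : a * p.1 = a * q.1 := by
        rw [h2] at hp'
        linarith
      exact Prod.ext (mul_left_cancel₀ ha h1) h2
  have h1 := card_congr_le a.natAbs (Int.natAbs_pos.mpr ha) b c T
  have e : Int.gcd b (a.natAbs : ℤ) = Int.gcd a b := by
    rw [Int.gcd_comm, Int.gcd_eq_natAbs, Int.gcd_eq_natAbs, Int.natAbs_natCast]
  rw [e] at h1
  exact le_trans (Nat.mul_le_mul_right _ hinj) h1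

/-- solutions `(z, v, w) ∈ [-T, T]³` of `e z + a v + b w = c`, `a ≠ 0` -/
theorem card_triples_le (a b e c : ℤ) (ha : a ≠ 0) (T : ℕ) :
    ((Finset.Icc (-(T : ℤ)) T ×ˢ (Finset.Icc (-(T : ℤ)) T ×ˢ Finset.Icc (-(T : ℤ)) T)).filter
      (fun p => e * p.1 + (a * p.2.1 + b * p.2.2) = c)).card * a.natAbs ≤
      4 * T ^ 2 * Nat.gcd (Int.gcd a b) e.natAbs + (4 * T + 1) * a.natAbs := by
  set I := Finset.Icc (-(T : ℤ)) T with hI
  set g2 := Int.gcd a b with hg2
  set g3 := Nat.gcd g2 e.natAbs with hg3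
  set A := a.natAbs with hA
  have hApos : 0 < A := Int.natAbs_pos.mpr ha
  have hg2pos : 0 < g2 := Int.gcd_pos_of_ne_zero_left _ ha
  have hg2A : g2 ≤ A := by
    apply Nat.le_of_dvd hApos
    rw [hg2, Int.gcd_eq_natAbs]
    exact Nat.gcd_dvd_left _ _
  have hg32 : g3 ≤ g2 := Nat.le_of_dvd hg2pos (Nat.gcd_dvd_left _ _)
  -- fibre over z
  have hsplit : ((I ×ˢ (I ×ˢ I)).filter
      (fun p => e * p.1 + (a * p.2.1 + b * p.2.2) = c)).card =
      ∑ z ∈ I, ((I ×ˢ I).filter (fun q => a * q.1 + b * q.2 = c - e * z)).card := by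
    rw [Finset.card_filter, Finset.sum_product]
    apply Finset.sum_congr rfl
    intro z _
    rw [Finset.card_filter]
    apply Finset.sum_congr rfl
    intro q _
    have : (e * z + (a * q.1 + b * q.2) = c) ↔ (a * q.1 + b * q.2 = c - e * z) := by
      constructor <;> intro h <;> linarith
    simp only [this]
  have hz : ∀ z ∈ I, ((I ×ˢ I).filter (fun q => a * q.1 + b * q.2 = c - e * z)).card * A ≤
      if (g2 : ℤ) ∣ e * z - c then 2 * T * g2 + A else 0 := by
    intro z _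
    split_ifs with hdiv
    · exact card_pairs_le a b (c - e * z) ha T
    · have hempty : (I ×ˢ I).filter (fun q => a * q.1 + b * q.2 = c - e * z) = ∅ := by
        apply Finset.filter_eq_empty_iff.mpr
        intro q _ hq
        apply hdiv
        have h1 : (g2 : ℤ) ∣ a * q.1 + b * q.2 :=
          dvd_add (Dvd.dvd.mul_right (Int.gcd_dvd_left a b) _)
            (Dvd.dvd.mul_right (Int.gcd_dvd_right a b) _)
        rw [hq] at h1
        have e1 : e * z - c = -(c - e * z) := by ring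
        rw [e1]
        exact (dvd_neg).mpr h1
      rw [hempty, Finset.card_empty, zero_mul]
  have hsum : ((I ×ˢ (I ×ˢ I)).filter
      (fun p => e * p.1 + (a * p.2.1 + b * p.2.2) = c)).card * A ≤
      (I.filter (fun z => (g2 : ℤ) ∣ e * z - c)).card * (2 * T * g2 + A) := by
    rw [hsplit, Finset.sum_mul]
    calc ∑ z ∈ I, ((I ×ˢ I).filter (fun q => a * q.1 + b * q.2 = c - e * z)).card * A
        ≤ ∑ z ∈ I, (if (g2 : ℤ) ∣ e * z - c then 2 * T * g2 + A else 0) :=
          Finset.sum_le_sum hz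
      _ = (I.filter (fun z => (g2 : ℤ) ∣ e * z - c)).card * (2 * T * g2 + A) := by
          rw [← Finset.sum_filter, Finset.sum_const, smul_eq_mul]
  have hZ := card_congr_le g2 hg2pos e c T
  have eg : Int.gcd e (g2 : ℤ) = g3 := by
    rw [hg3, Int.gcd_eq_natAbs, Int.natAbs_natCast, Nat.gcd_comm]
  rw [eg] at hZ
  -- combine
  set N := ((I ×ˢ (I ×ˢ I)).filter
      (fun p => e * p.1 + (a * p.2.1 + b * p.2.2) = c)).card with hN
  set Z := (I.filter (fun z => (g2 : ℤ) ∣ e * z - c)).card with hZdef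
  have h1 : g2 * (N * A) ≤ g2 * (4 * T ^ 2 * g3 + (4 * T + 1) * A) := by
    have h2 : N * A * g2 ≤ Z * g2 * (2 * T * g2 + A) := by
      calc N * A * g2 ≤ Z * (2 * T * g2 + A) * g2 := Nat.mul_le_mul_right g2 hsum
        _ = Z * g2 * (2 * T * g2 + A) := by ring
    have h3 : Z * g2 * (2 * T * g2 + A) ≤ (2 * T * g3 + g2) * (2 * T * g2 + A) :=
      Nat.mul_le_mul_right _ hZ
    have h4 : g3 * A ≤ g2 * A := Nat.mul_le_mul_right A hg32
    have h5 : g2 * g2 ≤ g2 * A := Nat.mul_le_mul_left g2 hg2A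
    nlinarith
  exact Nat.le_of_mul_le_mul_left h1 hg2pos

end Vale.Agent.Lib.P054
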